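import Crest.Agent.N250.B1.DrS
import Crest.Agent.N250.B1.Reg
import Crest.Agent.N250.B1.Conj
import Crest.Agent.N250.Gi.Cau
import Crest.Agent.N250.H.Hol

/-!
# Row 250 (helper56): END-CLOSE, the ends of the family are close to the end of `S` on `[R, θ X]`
-/

set_option autoImplicit false
open Set Complex Filter Topology Metric

noncomputable section

namespace Crest.Agent.N250.Ce

open B1
open Gi (Lam hat)

variable {ℓ : Ell}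

theorem val_add (u v : Wi (om ℓ)) (s : II) (θ : ℝ) : val (u + v) s θ = val u s θ + val v s θ := by
  simp only [val, Wi.syn_add, ContinuousMap.add_apply]

theorem val_vJ (R : ℝ) (X a : ℂ) (J : Jt ℓ) (s : II) (θ : ℝ) (i : Fin 6) :
    val (vJ R X a J i) s θ = vj R X a J s θ i := by
  have c : ∀ y : CI, val (Wi.cst (om ℓ) y) s θ = y s := fun y => by rw [val, Wi.syn_cst]
  have z : val (0 : Wi (om ℓ)) s θ = 0 := by rw [val, Wi.syn_zero]; rfl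
  rw [vJ, Pi.add_apply, val_add, add_comm]
  fin_cases i
  · refine congrArg (· + val (J 0) s θ) ((c _).trans ?_)
    change 1 + a / 2 * (gam R X s ^ 2 - 2) = et a (gam R X s)
    unfold et; ring
  · exact congrArg (· + val (J 1) s θ) (c _)
  · exact congrArg (· + val (J 2) s θ) ((c _).trans (mul_one a))
  · exact (congrArg (· + val (J 3) s θ) z).trans (zero_add _)
  · exact (congrArg (· + val (J 4) s θ) z).trans (zero_add _)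
  · exact (congrArg (· + val (J 5) s θ) z).trans (zero_add _)

theorem vj_sub (R : ℝ) (X a : ℂ) (J J' : Jt ℓ) (s : II) (θ : ℝ) (i : Fin 6) :
    vj R X a J s θ i - vj R X a J' s θ i = val (J i) s θ - val (J' i) s θ := by
  fin_cases i <;> simp [vj]

theorem dn_wd (R g g' X : ℝ) (a h : ℂ) (b : Wi (omP 2)) :
    dn R g g' X a (wd (ℓ := ℓ) b h) = R ^ g * ‖b‖ + X * ‖h‖ := by
  simp [dn, wd]

/-- pointwise form of `Xc` -/
theorem xc_val {R X X' N : ℝ} {J' J : Jt ℓ} (h : Xc R X X' J' J N) (hR : 1 ≤ R) (hX : R + 2 ≤ X)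
    (hX' : X ≤ X') {s' s : II} (e : xr R X' s' = xr R X s) (θ : ℝ) (i : Fin 6) :
    ‖val (J' i) s' θ - val (J i) s θ‖ ≤ N * (xr R X s ^ (7 / 8 : ℝ) * xr R X s ^ 2) := by
  obtain ⟨β, hs, hN, hb⟩ := h i
  have hm := xr_mem' hX s
  obtain ⟨x, hx⟩ : ∃ x, x = xr R X s := ⟨_, rfl⟩
  rw [← hx] at hm ⊢
  have h1 : 1 ≤ x := hR.trans hm.1
  have p0 : 0 < x ^ (7 / 8 : ℝ) := Real.rpow_pos_of_pos (by linarith) _
  have p1 : x ^ (![0, 1, 2, 0, 1, 0] i : ℕ) ≤ x ^ 2 :=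
    pow_le_pow_right₀ h1 (by fin_cases i <;> simp)
  have := ((Rg.hasSum_val (J' i) s' θ).sub (Rg.hasSum_val (J i) s θ)).norm_le_of_bounded
    (hs.hasSum.mul_right (x ^ (7 / 8 : ℝ) * x ^ 2)) fun m => by
      have b := hb m x hm
      have e1 : mo R X' J' i m x = Wi.co (J' i) m s' := by
        rw [mo, hx, ← e, fx_xr (by linarith)]
      have e2 : mo R X J i m x = Wi.co (J i) m s := by rw [mo, hx, fx_xr hX]
      rw [e1, e2] at b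
      have b1 := (le_mul_of_one_le_left (norm_nonneg _) (Real.one_le_exp (by
        have := mul_nonneg (sig_nonneg (u := x - R) (by linarith [hm.1])) (ℓ.nonneg m)
        linarith))).trans b
      have b0 : 0 ≤ β m := nonneg_of_mul_nonneg_left ((norm_nonneg _).trans b1) (by positivity)
      rw [← mul_sub, norm_mul, Wi.norm_ex, one_mul]
      exact b1.trans (by gcongr)
  exact this.trans (mul_le_mul_of_nonneg_right hN (by positivity))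

theorem xW_le {K X x g g' : ℝ} {a : ℂ} (h : Rg.Pt K X a x) (hg : Ex g g') :
    x * W g g' a x ≤ 6 := by
  obtain ⟨g1, g2, g3⟩ := Rg.Ex.bounds hg
  have hx := h.x_pos
  have h1 : x ^ (-g) ≤ x⁻¹ := by
    rw [← Real.rpow_neg_one]
    exact Real.rpow_le_rpow_of_exponent_le (by linarith [h.x2]) (by linarith)
  have h2 : ‖et a x‖ ^ g' ≤ (9 / 4 : ℝ) ^ (2 : ℝ) :=
    (Real.rpow_le_rpow (norm_nonneg _) h.norm_le (by linarith)).trans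
      (Real.rpow_le_rpow_of_exponent_le (by norm_num) g3)
  rw [Real.rpow_two] at h2
  calc x * W g g' a x ≤ x * (x⁻¹ * (9 / 4) ^ 2) := by unfold W; gcongr
    _ ≤ 6 := by rw [← mul_assoc, mul_inv_cancel₀ hx.ne']; norm_num

/-- all components of a jet in the ball are bounded -/
theorem val_bd {R K X M g g' : ℝ} {a : ℂ} {J : Jt ℓ} (hg : Ex g g') (h : InB R K g g' X a M J)
    {s : II} (hp : Rg.Pt K X a (xr R X s)) (θ : ℝ) (i : Fin 6) : ‖val (J i) s θ‖ ≤ M * 6 := by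
  obtain ⟨g1, g2, g3⟩ := Rg.Ex.bounds hg
  have hx := hp.x_pos
  have hn := hp.norm_pos
  have hW := hp.W_pos g g'
  have w1 := xW_le hp hg
  have w0 : W g g' a (xr R X s) ≤ 6 := by nlinarith [hp.x2]
  have xi : (xr R X s)⁻¹ ≤ 1 := inv_le_one_of_one_le₀ (by linarith [hp.x2])
  fin_cases i
  · exact Rg.val_le h.b0 s θ hp.rho_pos hW (Or.inl (hp.rho_le_one.trans (by norm_num))) w0
  · exact Rg.val_le h.b1 s θ (by positivity) (by positivity) (Or.inl (xi.trans (by norm_num)))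
      ((hp.W_div_le g1 g2 g3).trans (by linarith))
  · refine Rg.val_le h.b2 s θ one_pos (by positivity) (Or.inl (by norm_num)) ?_
    rw [div_le_iff₀ hn]
    nlinarith [hp.W_le_sq g1 g2 g3, hp.norm_le]
  · exact Rg.val_le h.b3 s θ one_pos hW (Or.inl (by norm_num)) w0
  · exact Rg.val_le h.b4 s θ one_pos (by positivity) (Or.inl (by norm_num)) w1
  · exact Rg.val_le h.b5 s θ one_pos hW (Or.inl (by norm_num)) w0

theorem norm_Lam_le {X : ℝ} {a : ℂ} (hX : 2 ≤ X) (h1 : (X ^ 2)⁻¹ ≤ ‖et a X‖) (h2 : ‖et a X‖ ≤ X ^ 2) :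
    ‖Lam X a‖ ≤ 6 * X := by
  have hX0 : 0 < X := by linarith
  have l0 : 0 ≤ Real.log (X ^ 2) := Real.log_nonneg (by nlinarith)
  have l1 : Real.log (X ^ 2) ≤ 2 * X := by
    rw [Real.log_pow]; push_cast; linarith [Real.log_le_sub_one_of_pos hX0]
  have p : 0 < ‖et a X‖ := lt_of_lt_of_le (by positivity) h1
  have l2 := Real.log_le_log p h2
  have l3 := Real.log_le_log (by positivity) h1
  rw [Real.log_inv] at l3
  have l4 : ‖Complex.log (et a X)‖ ≤ 2 * X + Real.pi := by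
    refine (norm_le_abs_re_add_abs_im _).trans (add_le_add ?_ ?_)
    · rw [log_re, abs_le]; constructor <;> linarith
    · rw [log_im]; exact abs_arg_le_pi _
  refine (norm_sub_le _ _).trans ?_
  rw [norm_real, Real.norm_eq_abs, abs_of_nonneg l0]
  linarith [Real.pi_le_four]

/-- the inner part of `DriftS` for one configuration -/
def Dr (ℓ : Ell) (R K Ch e0 c1 CD C : ℝ) : Prop :=
  ∀ (X X' : ℝ) (a h' : ℂ) (b : Wi (omP 2)) (J' : Jt ℓ),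
    2 * R + 4 ≤ X → 2 * √K ≤ X → X ≤ X' → Adm K X' a → ‖a‖ * X ^ 2 ≤ c1 →
    ‖h'‖ ≤ Ch / (X' ^ 3 * ‖et a X'‖) →
    Sol R ((X' : ℂ), a, wd b h') J' → InB R K (13 / 8) (7 / 4) X' a e0 J' →
    ‖hat X (tauX R X X' a J') - hat X' a‖ ≤ CD * (1 / (X ^ 6 * (et a X').re) + 1 / X ^ 5) ∧
    ‖tauX R X X' a J' - a‖ ≤ c1 / X ^ 2 ∧
    ∀ (h : ℂ) (J : Jt ℓ), ‖h‖ ≤ 2 * Ch / X ^ 3 → Sol R ((X : ℂ), tauX R X X' a J', wd b h) J →
      InB R K (13 / 8) (7 / 4) X (tauX R X X' a J') e0 J →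
      Xc R X X' (vJ R X' a J') (vJ R X (tauX R X X' a J') J) (C * X ^ (-33 / 8 : ℝ))


/-- the identification of the end `jS` of `S` with inner datum `b0` (helper94) -/
def Idt (ℓ : Ell) (R K ε : ℝ) (U : Par ℓ → Jt ℓ) (b0 : Wi (omP 2)) (jS : ℝ × ℝ → Fin 6 → ℂ) : Prop :=
  ∀ t : ℝ, 0 < t → ∃ δ X0 : ℝ, 0 < δ ∧ ∀ X : ℝ, X0 ≤ X → ∀ a h : ℂ, ‖a‖ * X ^ 2 ≤ δ → X * ‖h‖ ≤ δ →
    ((X : ℂ), a, wd b0 h) ∈ Dom (ℓ := ℓ) R K (13 / 8) (7 / 4) ε ∧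
    ∀ s θ i, ‖vj R X a (U ((X : ℂ), a, wd b0 h)) s θ i - jS (xr R X s, θ) i‖ ≤ t

theorem inB_of {R K g g' ε ε1 C e : ℝ} {U : Par ℓ → Jt ℓ} (h : IsEnd R K g g' ε ε1 C ℓ U)
    (hK : 1 ≤ K) (hC : 0 ≤ C) (h1 : C * (3 / K + ε) ≤ e) {z : Par ℓ} (hz : z ∈ Dom R K g g' ε) :
    InB R K g g' z.1.re z.2.1 e (U z) :=
  Cj.inB_mono (h.bd z hz) (Cj.bd_le (by linarith) hC h1 hz)

theorem ex0 : Ex (13 / 8) (7 / 4) := by unfold Ex; norm_num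

/-- Lipschitz dependence on the inner datum -/
theorem lip_b {R K g g' ε ε1 C X : ℝ} {U : Par ℓ → Jt ℓ} (hU : IsEnd R K g g' ε ε1 C ℓ U)
    (hg : Ex g g') (hR : 2 ≤ R) (hK : 1 ≤ K) (hC : 0 ≤ C) {a h : ℂ} {b0 b : Wi (omP 2)} {r : ℝ}
    (hd : ∀ b ∈ ball b0 r, ((X : ℂ), a, wd b h) ∈ Dom (ℓ := ℓ) R K g g' ε) (hb : b ∈ ball b0 r)
    (s : II) (θ : ℝ) (i : Fin 6) :
    ‖vj R X a (U ((X : ℂ), a, wd b h)) s θ i - vj R X a (U ((X : ℂ), a, wd b0 h)) s θ i‖ ≤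
      2 * (C * (3 / K + ε) * 6) / r * ‖b - b0‖ := by
  rw [vj_sub]
  refine H.lip_le (f := fun b => Gi.valL ℓ i s θ (U ((X : ℂ), a, wd b h))) ?_ (fun b hb => ?_) hb
  · refine (Gi.valL ℓ i s θ).differentiable.comp_differentiableOn (hU.hol.comp ?_ hd)
    unfold wd; fun_prop
  · exact val_bd hg (inB_of hU hK hC le_rfl (hd b hb)) (Rg.pt_of_dom hR hK (hd b hb) s) θ i

/-- the far parameter after the restriction to `X₁ = θ X` is small -/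
theorem tau_le {K X X1 θ CD : ℝ} {a τ : ℂ} (hp : Rg.Pt K X a X) (h2 : 2 ≤ X1) (hθ : 0 < θ)
    (hθ' : θ ≤ 1 / 2) (e : X1 = θ * X) (hCD : 0 ≤ CD)
    (h1 : ‖τ - a‖ * ((X1 ^ 2 - 2) / 2) ≤ 1 / 10)
    (h : ‖hat X1 τ - hat X a‖ ≤ CD * (1 / (X1 ^ 6 * (et a X).re) + 1 / X1 ^ 5)) :
    ‖τ‖ * X1 ^ 2 ≤ 5 / 2 * θ ^ 2 + (CD / θ ^ 2 + CD + 62) / X1 := by
  have hX := hp.X_pos
  have hX1 : 0 < X1 := by linarith
  have hXX : X1 ≤ X := by nlinarith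
  have a1 := hp.a_le
  have a2 : ‖a‖ * X1 ^ 2 ≤ 5 / 2 * θ ^ 2 := by
    rw [e, mul_pow, mul_left_comm, mul_comm (5 / 2)]; gcongr
  have a3 : ‖a‖ * X1 ^ 2 ≤ 5 / 8 := a2.trans (by nlinarith)
  have na := norm_nonneg a
  have t0 : ‖τ‖ ≤ ‖a‖ + ‖τ - a‖ := by simpa using norm_add_le a (τ - a)
  have t1 : ‖τ‖ * ((X1 ^ 2 - 2) / 2) ≤ 1 / 2 := by
    have : 0 ≤ (X1 ^ 2 - 2) / 2 := by nlinarith
    nlinarith [mul_le_mul_of_nonneg_right t0 this]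
  have t2 : ‖τ‖ * X1 ^ 2 ≤ 2 := by
    nlinarith [mul_nonneg (norm_nonneg τ) (show 0 ≤ X1 ^ 2 - 4 by nlinarith)]
  have t3 : ‖et τ X1 - 1‖ ≤ 1 / 2 := by
    have : et τ X1 - 1 = τ * (((X1 ^ 2 - 2) / 2 : ℝ) : ℂ) := by unfold et; push_cast; ring
    rw [this, norm_mul, norm_real, Real.norm_eq_abs, abs_of_nonneg (by nlinarith)]; exact t1
  have t4 := abs_le.1 ((abs_norm_sub_norm_le (et τ X1) 1).trans t3)
  rw [norm_one] at t4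
  have L1 : ‖Lam X1 τ‖ ≤ 6 * X1 := norm_Lam_le h2
    ((inv_le_comm₀ (by positivity) (by linarith)).2
      ((inv_le_comm₀ (by linarith) (by norm_num : (0 : ℝ) < 2)).2 (by linarith) |>.trans
        (by nlinarith))) (by nlinarith)
  have k1 : (X ^ 2)⁻¹ ≤ (et a X).re := by
    refine le_trans ?_ (hp.k_le_rho.trans hp.rho_le)
    rw [inv_eq_one_div]; gcongr; linarith [hp.K1]
  have L2 : ‖Lam X a‖ ≤ 6 * X := norm_Lam_le hp.x2 (k1.trans (re_le_norm _))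
    (hp.norm_le.trans (by nlinarith [hp.x2]))
  have e1 : τ = a + (hat X1 τ - hat X a) - τ ^ 2 * Lam X1 τ + a ^ 2 * Lam X a := by
    unfold hat; ring
  have e2 : ‖τ‖ ≤ ‖a‖ + ‖hat X1 τ - hat X a‖ + ‖τ‖ ^ 2 * ‖Lam X1 τ‖ + ‖a‖ ^ 2 * ‖Lam X a‖ := by
    conv_lhs => rw [e1]
    refine (norm_add_le _ _).trans (add_le_add ((norm_sub_le _ _).trans
      (add_le_add (norm_add_le _ _) ?_)) ?_) <;> rw [norm_mul, norm_pow]
  have b1 : ‖hat X1 τ - hat X a‖ * X1 ^ 2 ≤ (CD / θ ^ 2 + CD) / X1 := by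
    have c1 : 1 / (X1 ^ 6 * (et a X).re) ≤ 1 / (X1 ^ 6 * (X ^ 2)⁻¹) := by gcongr
    have c2 : 1 / (X1 ^ 6 * (X ^ 2)⁻¹) * X1 ^ 2 = 1 / θ ^ 2 / X1 * (1 / X1) := by
      rw [e]; field_simp
    have c3 : 1 / X1 ≤ 1 := by rw [div_le_one hX1]; linarith
    have c4 : 1 / X1 ^ 5 * X1 ^ 2 = 1 / X1 * (1 / X1 * (1 / X1)) := by field_simp
    have c5 : 0 < 1 / X1 := by positivity
    calc _ ≤ CD * (1 / (X1 ^ 6 * (X ^ 2)⁻¹) + 1 / X1 ^ 5) * X1 ^ 2 := by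
          gcongr; exact h.trans (by gcongr)
      _ = CD * (1 / θ ^ 2 / X1 * (1 / X1) + 1 / X1 * (1 / X1 * (1 / X1))) := by
          rw [mul_assoc, add_mul, c2, c4]
      _ ≤ CD * (1 / θ ^ 2 / X1 * 1 + 1 / X1 * (1 * 1)) := by gcongr
      _ = _ := by ring
  have b2 : ‖τ‖ ^ 2 * ‖Lam X1 τ‖ * X1 ^ 2 ≤ 24 / X1 := by
    rw [le_div_iff₀ hX1]
    calc _ ≤ ‖τ‖ ^ 2 * (6 * X1) * X1 ^ 2 * X1 := by gcongr
      _ = 6 * (‖τ‖ * X1 ^ 2) ^ 2 := by ring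
      _ ≤ 6 * 2 ^ 2 := by gcongr
      _ = _ := by norm_num
  have b3 : ‖a‖ ^ 2 * ‖Lam X a‖ * X1 ^ 2 ≤ 38 / X1 := by
    rw [le_div_iff₀ hX1]
    calc _ ≤ ‖a‖ ^ 2 * (6 * X) * X ^ 2 * X := by gcongr
      _ = 6 * (‖a‖ * X ^ 2) ^ 2 := by ring
      _ ≤ 6 * (5 / 2) ^ 2 := by gcongr
      _ ≤ _ := by norm_num
  have := mul_le_mul_of_nonneg_right e2 (sq_nonneg X1)
  have e3 : (CD / θ ^ 2 + CD + 62) / X1 = (CD / θ ^ 2 + CD) / X1 + 24 / X1 + 38 / X1 := by ring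
  rw [e3]
  linarith

/-- **END-CLOSE** -/
theorem close {R K ε ε1 C Ch e0 c1 CD C' : ℝ} {U : Par ℓ → Jt ℓ} {b0 : Wi (omP 2)}
    {jS : ℝ × ℝ → Fin 6 → ℂ} (hU : IsEnd R K (13 / 8) (7 / 4) ε ε1 C ℓ U) (hR : 2 ≤ R) (hK : 1 ≤ K)
    (hC : 0 ≤ C) (he : C * (3 / K + ε) ≤ e0) (he' : C * (3 / K + ε) ≤ 1 / 100) (hc1 : 0 < c1)
    (hCh : 0 ≤ Ch) (hCD : 0 ≤ CD) (hC' : 0 ≤ C') (hD : Dr ℓ R K Ch e0 c1 CD C')
    (hI : Idt ℓ R K ε U b0 jS) : ∃ L rb : ℝ, 0 ≤ L ∧ 0 < rb ∧ ∀ t : ℝ, 0 < t → ∃ θ X0 : ℝ,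
      0 < θ ∧ θ ≤ 1 / 2 ∧ ∀ X : ℝ, X0 ≤ X → ∀ (a h : ℂ) (b : Wi (omP 2)),
        ((X : ℂ), a, wd b h) ∈ Dom (ℓ := ℓ) R K (13 / 8) (7 / 4) ε →
        ‖h‖ ≤ Ch / (X ^ 3 * ‖et a X‖) → ‖b - b0‖ < rb → ∀ (s : II) θ' i, xr R X s ≤ θ * X →
          ‖vj R X a (U ((X : ℂ), a, wd b h)) s θ' i - jS (xr R X s, θ') i‖ ≤ t + L * ‖b - b0‖ := by
  have pR : 0 < R ^ (13 / 8 : ℝ) := Real.rpow_pos_of_pos (by linarith) _
  have room : R ^ (13 / 8 : ℝ) * ‖b0‖ < ε := by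
    obtain ⟨δ, X0, hδ, H⟩ := hI 1 one_pos
    have := (H X0 le_rfl 0 0 (by simpa using hδ.le) (by simpa using hδ.le)).1.2.2.2.2
    simpa [dn_wd] using this
  obtain ⟨rb, hrb⟩ : ∃ rb, rb = (ε - R ^ (13 / 8 : ℝ) * ‖b0‖) / R ^ (13 / 8 : ℝ) := ⟨_, rfl⟩
  have rb0 : 0 < rb := hrb ▸ div_pos (sub_pos.2 room) pR
  have ε0 : 0 < ε := lt_of_le_of_lt (by positivity) room
  refine ⟨2 * (C * (3 / K + ε) * 6) / rb, rb, by positivity, rb0, fun t ht => ?_⟩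
  obtain ⟨δ, X0, hδ, H⟩ := hI (t / 2) (half_pos ht)
  obtain ⟨θ, hθ, hθ1, hθ2, hθ3⟩ : ∃ θ : ℝ, 0 < θ ∧ θ ≤ 1 / 2 ∧ θ ≤ δ / 4 ∧ θ ≤ c1 / 2 :=
    ⟨min (1 / 2) (min (δ / 4) (c1 / 2)), by positivity, min_le_left _ _,
      (min_le_right _ _).trans (min_le_left _ _), (min_le_right _ _).trans (min_le_right _ _)⟩
  obtain ⟨B, hB⟩ : ∃ B, B = CD / θ ^ 2 + CD + 62 := ⟨_, rfl⟩
  have B0 : 0 ≤ B := by rw [hB]; positivity
  refine ⟨θ, (|X0| + (2 * R + 4) + 2 * √K + 2 * B / δ + 2 * C' / t) / θ, hθ, hθ1, ?_⟩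
  intro X hX a h b hz hh hb s θ' i hs
  rw [div_le_iff₀ hθ, mul_comm X θ] at hX
  obtain ⟨X1, e⟩ : ∃ X1, X1 = θ * X := ⟨_, rfl⟩
  rw [← e] at hX hs
  have q1 := abs_nonneg X0
  have q2 : 0 ≤ 2 * √K := by positivity
  have q3 : 0 ≤ 2 * B / δ := by positivity
  have q4 : 0 ≤ 2 * C' / t := by positivity
  have X1p : 0 < X1 := by linarith
  have Xp : 0 < X := (mul_pos_iff_of_pos_left hθ).1 (e ▸ X1p)
  have hXX : X1 ≤ X := e ▸ mul_le_of_le_one_left Xp.le (by linarith)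
  have th2 : θ ^ 2 ≤ θ / 2 := by rw [sq, div_eq_mul_one_div]; gcongr
  have hR2 : R + 2 ≤ X1 := by linarith
  have hR2' : R + 2 ≤ X := by linarith
  have hp : Rg.Pt K X a X := by simpa [Gi.xr_i1] using Rg.pt_of_dom hR hK hz i1
  have hin := inB_of hU hK hC le_rfl hz
  simp only [ofReal_re] at hin
  obtain ⟨J', hJ'⟩ : ∃ J', J' = U ((X : ℂ), a, wd b h) := ⟨_, rfl⟩
  rw [← hJ'] at hin ⊢
  have a2 : ‖a‖ * X1 ^ 2 ≤ 5 / 2 * θ ^ 2 := by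
    rw [e, mul_pow, mul_left_comm, mul_comm (5 / 2)]; gcongr; exact hp.a_le
  obtain ⟨d1, -, d3⟩ := hD X1 X a h b J' (by linarith) (by linarith) hXX hp.adm (by linarith) hh
    (hJ' ▸ hU.sol _ hz) (Cj.inB_mono hin he)
  obtain ⟨τ, hτ⟩ : ∃ τ, τ = tauX R X1 X a J' := ⟨_, rfl⟩
  rw [← hτ] at d1 d3
  have t0 : ‖τ - a‖ * ((X1 ^ 2 - 2) / 2) ≤ 1 / 10 := by
    obtain ⟨s1, hs1⟩ := exists_xr hR2' (x := X1) ⟨by linarith, hXX⟩
    have p1 : Rg.Pt K X a (xr R X s1) := by simpa using Rg.pt_of_dom hR hK hz s1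
    have p2 : 0 < (X1 ^ 2 - 2) / 2 := by
      have := pow_le_pow_left₀ zero_le_two (show 2 ≤ X1 by linarith) 2
      linarith
    have p3 : W (13 / 8) (7 / 4) a (xr R X s1) ≤ 6 :=
      (le_mul_of_one_le_left (p1.W_pos _ _).le (by linarith [p1.x2])).trans (xW_le p1 ex0)
    obtain ⟨β, b1, b2, b3, b4⟩ := Rg.WB.coef hin.b0 s1 (F := 6) p1.rho_pos (p1.W_pos _ _)
      (Or.inl (p1.rho_le_one.trans (by norm_num))) p3
    have b5 := b1.le_tsum 0 fun m _ => b3 m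
    have e1 : τ - a = Wi.co (J' 0) 0 s1 / (((X1 ^ 2 - 2) / 2 : ℝ) : ℂ) := by
      rw [hτ, tauX, mo, ← hs1, fx_xr hR2']; push_cast; ring
    rw [e1, norm_div, norm_real, Real.norm_eq_abs, abs_of_pos p2, div_mul_cancel₀ _ p2.ne']
    linarith [b4 0]
  have t1 := tau_le hp (by linarith) hθ hθ1 e hCD t0 d1
  have t2 : B / X1 ≤ δ / 2 := by
    rw [div_le_iff₀ X1p]
    have : 2 * B / δ ≤ X1 := by linarith
    rw [div_le_iff₀ hδ] at this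
    linarith
  obtain ⟨m0, m1⟩ := H X1 (by linarith [le_abs_self X0]) τ 0 (by rw [← hB] at t1; linarith)
    (by simpa using hδ.le)
  have hd : ∀ b ∈ ball b0 rb, ((X1 : ℂ), τ, wd b 0) ∈ Dom (ℓ := ℓ) R K (13 / 8) (7 / 4) ε :=
    fun b hb => by
      refine ⟨m0.1, m0.2.1, m0.2.2.1, m0.2.2.2.1, ?_⟩
      have h1 : ‖b‖ ≤ ‖b0‖ + ‖b - b0‖ := by simpa using norm_add_le b0 (b - b0)
      have h2 := mem_ball_iff_norm.1 hb
      rw [hrb, lt_div_iff₀ pR] at h2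
      simp only [dn_wd, norm_zero, mul_zero, add_zero]
      linarith [mul_le_mul_of_nonneg_left h1 pR.le]
  have hb' : b ∈ ball b0 rb := mem_ball_iff_norm.2 hb
  obtain ⟨s1, hs1⟩ := exists_xr hR2 (x := xr R X s) ⟨(xr_mem' hR2' s).1, hs⟩
  have c1' := xc_val (d3 0 _ (by rw [norm_zero]; positivity) (hU.sol _ (hd b hb'))
    (by simpa using inB_of hU hK hC he (hd b hb'))) (by linarith) hR2 hXX hs1.symm θ' i
  rw [val_vJ, val_vJ] at c1'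
  have c2 := lip_b hU ex0 hR hK hC hd hb' s1 θ' i
  have c3 := m1 s1 θ' i
  rw [hs1] at c1' c3
  have c4 : C' * X1 ^ (-33 / 8 : ℝ) * (xr R X s ^ (7 / 8 : ℝ) * xr R X s ^ 2) ≤ t / 2 := by
    have x0 : 0 ≤ xr R X s := by linarith [(xr_mem' hR2' s).1]
    have f1 : X1 ^ (-33 / 8 : ℝ) * (X1 ^ (7 / 8 : ℝ) * X1 ^ 2) ≤ X1⁻¹ := by
      rw [← Real.rpow_two, ← Real.rpow_add X1p, ← Real.rpow_add X1p, ← Real.rpow_neg_one]
      exact Real.rpow_le_rpow_of_exponent_le (by linarith) (by norm_num)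
    have f2 : 2 * C' / t ≤ X1 := by linarith
    rw [div_le_iff₀ ht] at f2
    calc _ ≤ C' * X1 ^ (-33 / 8 : ℝ) * (X1 ^ (7 / 8 : ℝ) * X1 ^ 2) := by gcongr
      _ ≤ C' * X1⁻¹ := by rw [mul_assoc]; gcongr
      _ ≤ t / 2 := by rw [← div_eq_mul_inv, div_le_iff₀ X1p]; linarith
  have := (norm_sub_le_norm_sub_add_norm_sub _ _ _).trans (add_le_add (c1'.trans c4)
    ((norm_sub_le_norm_sub_add_norm_sub _ _ _).trans (add_le_add c2 c3)))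
  linarith

end Crest.Agent.N250.Ce

end
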